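import Vale.Agent.P050.M18.Main
import Vale.Agent.P050.H546.Spec2

/-!
The entropy side from its three lemmas.
-/

set_option linter.unusedSectionVars false

namespace Vale.Agent.P050.H465

open Finset Vale.Agent.P050.H148 Vale.Agent.P050.Cart Vale.Agent.P050.M18 Vale.Agent.P050.H546

variable {U : Type} [Fintype U] {Q : U × U → ℝ} (hE : Edge Q)
include hE

theorem h2_le [DecidableEq U] : h2Q Q ≤ 2 * aQ Q := by
  have := r_nonneg hE
  linarith

theorem h3_le : h3Q Q ≤ 2 * aQ Q := by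
  have h := ent_subadd (W3_nn hE) (W3_tot hE) (fun x => x.1.1.1) (fun x => x.2)
  have h1 : ent (W3 Q) (fun x => x.1.1.1) = aQ Q := by
    unfold aQ ent
    rw [W3_0 hE]
    simp_rw [mar_id]
  have h2 : ent (W3 Q) (fun x => x.2) = aQ Q := by
    unfold aQ ent
    rw [W3_3 hE]
    simp_rw [mar_id]
  rw [h1, h2] at h
  unfold h3Q
  linarith

theorem hB_le [DecidableEq U] (n : ℕ) : hB Q n ≤ hQ Q + aQ Q := by
  have hl := PP_lab hE n
  have h := ent_subadd hl.nn (hl.tot hE) (fun x => x.1) (fun x => x.2.2)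
  have h2 : ent (PP Q n) (fun x => x.2.2) = aQ Q := by
    have h3 : ent (PP Q n) (fun x => x.2.2) =
        ent (mar (PP Q n) (fun x => x.2)) (fun e => e.2) := by
      rw [ent_mar]
    rw [h3, hl.snd, hE.ent_snd]
  rw [PP_label hE, h2] at h
  unfold hB
  exact h

omit hE in
theorem ent_of (h1 : BaseStmt) (h2 : MidStmt) (h3 : CloseStmt) : EntStmt := by
  intro U _ _ C A Q hE hC hA hA1 n hn
  obtain ⟨Ω, _, P, R, a, b, hb⟩ := h1 U Q hE n
  obtain ⟨h4, h5⟩ := h3 U _ C A Q _ _ _ _ _ _ n hE hC hA hA1 (h2 U Ω Q P R a b n hE hb)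
  refine ⟨h4, le_trans ?_ h5⟩
  have e1 := h2_le hE
  have e2 := h3_le hE
  have e3 := hB_ge hE n hn
  have e4 := hB_le hE (n + 3)
  unfold gQ
  have hn' : (2 : ℝ) ≤ n := by exact_mod_cast hn
  have e5 : 0 ≤ (2 * (n : ℝ) - 2) * (2 * aQ Q - h2Q Q) :=
    mul_nonneg (by linarith) (by linarith)
  nlinarith [e2, e3, e4, e5]

end Vale.Agent.P050.H465
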