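import Vale.Agent.P050.M18.Final
import Vale.Agent.P050.H546.Spec

/-!
The uniform law on the edges of a graph, and the end of the proof.
-/

set_option linter.unusedSectionVars false

namespace Vale.Agent.P050.H465

open Finset Vale.Agent.P050.H148 Vale.Agent.P050.Cart Vale.Agent.P050.M18 Vale.Agent.P050.H546

section law

variable {X : Type} [Fintype X] (G : SimpleGraph X)

/-- the number of ordered edges -/
noncomputable def te : ℝ := ∑ x, ∑ y, adj G x y

/-- the uniform law on the edges -/
noncomputable def QE (a : X × X) : ℝ := adj G a.1 a.2 / te G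

variable (hG : ∃ x y, G.Adj x y)
include hG

theorem te_pos : 0 < te G := by
  obtain ⟨x, y, hxy⟩ := hG
  have h1 : adj G x y = 1 := by
    unfold adj
    rw [if_pos hxy]
  have h2 : adj G x y ≤ ∑ y, adj G x y :=
    Finset.single_le_sum (f := fun y => adj G x y) (fun b _ => adj_nn G _ _) (mem_univ _)
  have h3 : ∑ y, adj G x y ≤ te G :=
    Finset.single_le_sum (f := fun x => ∑ y, adj G x y)
      (fun a _ => Finset.sum_nonneg fun b _ => adj_nn G _ _) (mem_univ _)
  linarith

theorem QE_edge : Edge (QE G) where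
  nn := fun a => div_nonneg (adj_nn G _ _) (te_pos G hG).le
  tot := by
    unfold QE
    rw [← Finset.sum_div, Fintype.sum_prod_type]
    exact div_self (te_pos G hG).ne'
  sym := by
    intro x y
    unfold QE
    simp only
    rw [adj_symm]

omit hG in
theorem QE_ne {a : X × X} (h : QE G a ≠ 0) : adj G a.1 a.2 = 1 :=
  adj_one G (div_ne_zero_iff.1 h).1

theorem QE_four : Four (CG G) (QE G) where
  c0 := CG_nn G
  c1 := by
    intro s f f' s' h1 h2 h3 h4
    have a1 := QE_ne G h1
    have a2 := QE_ne G h2
    have a3 := QE_ne G h3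
    have a4 := QE_ne G h4
    unfold CG
    simp only at a1 a2 a3 a4 ⊢
    rw [a1, a2, a3, a4]
    norm_num

/-- the entropy of the uniform law -/
theorem hQE : hQ (QE G) = Real.log (te G) := by
  have ht := te_pos G hG
  unfold hQ
  rw [ent_eq]
  have e1 : ∀ x, QE G x * Real.log (mar (QE G) (fun x => x) x) =
      - (QE G x * Real.log (te G)) := by
    intro x
    rw [mar_id]
    by_cases hx : QE G x = 0
    · rw [hx]; ring
    · have h1 := QE_ne G hx
      have h2 : QE G x = 1 / te G := by
        unfold QE
        rw [h1]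
      rw [h2, Real.log_div one_ne_zero ht.ne', Real.log_one]
      ring
  rw [Finset.sum_congr rfl fun x _ => e1 x, Finset.sum_neg_distrib, neg_neg, ← Finset.sum_mul,
    (QE_edge G hG).tot, one_mul]

/-- the entropy of a vertex -/
theorem aQE_le : aQ (QE G) ≤ Real.log (Fintype.card X) := by
  have hE := QE_edge G hG
  have key := ent_log_sum (P := QE G) hE.nn hE.tot (fun e => e.2) (fun _ => 1)
    (fun a => zero_le_one) (fun a ha => one_ne_zero)
  have h2 := key.2
  simp only [Real.log_one, mul_zero, Finset.sum_const_zero, add_zero, Finset.sum_const,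
    Finset.card_univ, nsmul_eq_mul, mul_one] at h2
  rw [hE.ent_snd] at h2
  exact h2

end law

section pow

variable {E : Type} [Fintype E] [DecidableEq E] {C : E → E → ℝ}

theorem zp_add (C : E → E → ℝ) (i j : ℕ) (a b : E) :
    zp C (i + j) a b = ∑ c, zp C i a c * zp C j c b := by
  induction j generalizing b with
  | zero =>
    rw [Finset.sum_eq_single b]
    · simp [zp]
    · intro c _ hc
      simp [zp, hc]
    · intro h; exact absurd (mem_univ _) h
  | succ j ih =>
    show ∑ c, zp C (i + j) a c * C c b = ∑ c, zp C i a c * ∑ d, zp C j c d * C d b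
    simp_rw [ih, Finset.sum_mul, Finset.mul_sum]
    rw [Finset.sum_comm]
    exact Finset.sum_congr rfl fun c _ => Finset.sum_congr rfl fun d _ => by ring

theorem zp_symm (hC : ∀ a b, C a b = C b a) (n : ℕ) (a b : E) : zp C n a b = zp C n b a := by
  induction n generalizing a b with
  | zero =>
    simp only [zp]
    by_cases h : a = b
    · rw [h]
    · rw [if_neg h, if_neg fun h' => h h'.symm]
  | succ n ih =>
    have h1 : zp C (n + 1) b a = ∑ c, zp C 1 b c * zp C n c a := by
      rw [Nat.add_comm n 1]
      exact zp_add C 1 n b a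
    rw [h1]
    show ∑ c, zp C n a c * C c b = _
    refine Finset.sum_congr rfl fun c _ => ?_
    have h2 : zp C 1 b c = C b c := by
      show ∑ d, zp C 0 b d * C d c = C b c
      rw [Finset.sum_eq_single b]
      · simp [zp]
      · intro d _ hd
        simp [zp, hd.symm]
      · intro h; exact absurd (mem_univ _) h
    rw [h2, ih a c, hC c b]
    ring

end pow

/-- the sum over the centre rung -/
theorem sum_nh {U : Type} [Fintype U] [DecidableEq U] {C : U × U → U × U → ℝ}
    (hC : ∀ a b, C a b = C b a) (A : U → U → ℝ) (n m : ℕ) (hm : m = 2 * n + 5) :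
    ∑ b, ∑ a, zp C m b a * cc A b a = nh C A n := by
  have h1 : ∀ b a, zp C m b a = ∑ R, zp C (n + 1) R a * zp C (n + 4) R b := by
    intro b a
    have h2 : m = (n + 4) + (n + 1) := by omega
    rw [h2, zp_add]
    refine Finset.sum_congr rfl fun R _ => ?_
    rw [zp_symm hC (n + 4) b R]
    ring
  simp_rw [h1, Finset.sum_mul]
  unfold nh
  rw [Finset.sum_comm' (s := univ) (t := fun _ => univ) (t' := univ) (s' := fun _ => univ)
    (by simp)]
  calc ∑ a, ∑ b, ∑ R, zp C (n + 1) R a * zp C (n + 4) R b * cc A b a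
      = ∑ a, ∑ R, ∑ b, zp C (n + 1) R a * zp C (n + 4) R b * cc A b a :=
        Finset.sum_congr rfl fun a _ => Finset.sum_comm
    _ = ∑ R, ∑ a, ∑ b, zp C (n + 1) R a * zp C (n + 4) R b * cc A b a := Finset.sum_comm

/-- **The end of the proof.** -/
theorem final_of (hGr : GraphStmt) (hEn : EntStmt) : FinalStmt := by
  classical
  intro X _ _ G k hk h11
  obtain ⟨j, hj⟩ := hk
  obtain ⟨n, hn⟩ : ∃ n, k = 2 * n + 7 := ⟨j - 3, by omega⟩
  have hn2 : 2 ≤ n := by omega
  rcases (edge_nn G).lt_or_eq with hp | hp
  · have hG := exists_adj G hp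
    have hN := card_pos' (X := X)
    obtain ⟨h1, h2⟩ := hEn X (CG G) (adj G) (QE G) (QE_edge G hG) (QE_four G hG)
      (fun x y => adj_nn G x y) (fun x y h => QE_ne G h) n hn2
    have h3 := hGr X G (2 * n + 5) ⟨n + 2, by omega⟩
    rw [sum_nh (CG_symm G) (adj G) n (2 * n + 5) rfl] at h3
    rw [← h3] at h1 h2
    have h4 : 0 < homDensity (rungless (2 * n + 5 + 2)) G := by
      rcases (hom_nn G (rungless (2 * n + 5 + 2))).lt_or_eq with h | h
      · exact h
      · rw [← h, zero_mul] at h1; exact absurd h1 (lt_irrefl _)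
    rw [Real.log_mul h4.ne' (by positivity), Real.log_pow, hQE G hG] at h2
    have h5 := aQE_le G hG
    have h6 : te G = edgeDensity G * (Fintype.card X : ℝ) ^ 2 := adj_sum' G
    rw [h6, Real.log_mul hp.ne' (by positivity), Real.log_pow] at h2
    have h7 : k = 2 * n + 5 + 2 := by omega
    subst h7
    rw [← Real.log_le_log_iff (by positivity) h4, Real.log_pow]
    have h8 : 3 * (2 * n + 5 + 2) - 1 = 6 * n + 20 := by omega
    rw [h8]
    push_cast at h2 ⊢
    have h9 : (8 * (n : ℝ) + 26) * aQ (QE G) ≤ (8 * n + 26) * Real.log (Fintype.card X) :=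
      mul_le_mul_of_nonneg_left h5 (by positivity)
    nlinarith [h2, h9]
  · rw [← hp, zero_pow (by omega)]
    exact hom_nn G _

end Vale.Agent.P050.H465
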